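import Vale.Agent.P098.Cert.Bridge.MidQ

/-!
P098: entries 5 to 9 of the tables of the middle form, as polynomial identities.
-/

namespace Vale.Agent.P098.Cert

open Check Data

noncomputable section

set_option maxRecDepth 8000 in
/-- Entry 5 of the middle form. -/
lemma midEntry5 (s v z : ℝ) :
    -19660800000000 * midQ s v z 0 1 0 0 0 = evalEntry midFormE5 s v z := by
  simp only [midQ, midHom, redHom, elimHom, jetM, jetC, vecM, vecC, jetOf_quad, quad,
    Matrix.cons_val_zero, Matrix.cons_val_one, Fin.val_zero, Fin.val_one, Fin.val_two,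
    show ((3 : Fin 5) : ℕ) = 3 from rfl, midDen, midK, evalEntry, midFormE5,
    midFormE5x0, midFormE5x1, midFormE5x2, midFormE5x3, midFormE5x4, midFormE5x5, midFormE5x6,
    List.map_cons, List.map_nil, hornerR, Matrix.cons_val]
  norm_num [hornerR]
  ring

set_option maxRecDepth 8000 in
/-- Entry 6 of the middle form. -/
lemma midEntry6 (s v z : ℝ) :
    -19660800000000 * (midQ s v z 0 1 1 0 0 - midQ s v z 0 1 0 0 0 -
      midQ s v z 0 0 1 0 0) = 2 * evalEntry midFormE6 s v z := by
  simp only [midQ, midHom, redHom, elimHom, jetM, jetC, vecM, vecC, jetOf_quad, quad,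
    Matrix.cons_val_zero, Matrix.cons_val_one, Fin.val_zero, Fin.val_one, Fin.val_two,
    show ((3 : Fin 5) : ℕ) = 3 from rfl, midDen, midK, evalEntry, midFormE6,
    midFormE6x0, midFormE6x1, midFormE6x2, midFormE6x3, midFormE6x4, midFormE6x5, midFormE6x6,
    List.map_cons, List.map_nil, hornerR, Matrix.cons_val]
  norm_num [hornerR]
  ring

set_option maxRecDepth 8000 in
/-- Entry 7 of the middle form. -/
lemma midEntry7 (s v z : ℝ) :
    -19660800000000 * (midQ s v z 0 1 0 1 0 - midQ s v z 0 1 0 0 0 -
      midQ s v z 0 0 0 1 0) = 2 * evalEntry midFormE7 s v z := by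
  simp only [midQ, midHom, redHom, elimHom, jetM, jetC, vecM, vecC, jetOf_quad, quad,
    Matrix.cons_val_zero, Matrix.cons_val_one, Fin.val_zero, Fin.val_one, Fin.val_two,
    show ((3 : Fin 5) : ℕ) = 3 from rfl, midDen, midK, evalEntry, midFormE7,
    midFormE7x0, midFormE7x1, midFormE7x2, midFormE7x3, midFormE7x4, midFormE7x5, midFormE7x6,
    List.map_cons, List.map_nil, hornerR, Matrix.cons_val]
  norm_num [hornerR]
  ring

set_option maxRecDepth 8000 in
/-- Entry 8 of the middle form. -/
lemma midEntry8 (s v z : ℝ) :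
    -19660800000000 * (midQ s v z 0 1 0 0 1 - midQ s v z 0 1 0 0 0 -
      midQ s v z 0 0 0 0 1) = 2 * evalEntry midFormE8 s v z := by
  simp only [midQ, midHom, redHom, elimHom, jetM, jetC, vecM, vecC, jetOf_quad, quad,
    Matrix.cons_val_zero, Matrix.cons_val_one, Fin.val_zero, Fin.val_one, Fin.val_two,
    show ((3 : Fin 5) : ℕ) = 3 from rfl, midDen, midK, evalEntry, midFormE8,
    midFormE8x0, midFormE8x1, midFormE8x2, midFormE8x3, midFormE8x4, midFormE8x5, midFormE8x6,
    List.map_cons, List.map_nil, hornerR, Matrix.cons_val]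
  norm_num [hornerR]
  ring

set_option maxRecDepth 8000 in
/-- Entry 9 of the middle form. -/
lemma midEntry9 (s v z : ℝ) :
    -19660800000000 * midQ s v z 0 0 1 0 0 = evalEntry midFormE9 s v z := by
  simp only [midQ, midHom, redHom, elimHom, jetM, jetC, vecM, vecC, jetOf_quad, quad,
    Matrix.cons_val_zero, Matrix.cons_val_one, Fin.val_zero, Fin.val_one, Fin.val_two,
    show ((3 : Fin 5) : ℕ) = 3 from rfl, midDen, midK, evalEntry, midFormE9,
    midFormE9x0, midFormE9x1, midFormE9x2, midFormE9x3, midFormE9x4, midFormE9x5, midFormE9x6,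
    List.map_cons, List.map_nil, hornerR, Matrix.cons_val]
  norm_num [hornerR]
  ring

end

end Vale.Agent.P098.Cert
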