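import Vale.Agent.P098.Cert.Bridge.MidQ

/-!
P098: entries 10 to 14 of the tables of the middle form, as polynomial identities.
-/

namespace Vale.Agent.P098.Cert

open Check Data

noncomputable section

set_option maxRecDepth 8000 in
/-- Entry 10 of the middle form. -/
lemma midEntry10 (s v z : ℝ) :
    -19660800000000 * (midQ s v z 0 0 1 1 0 - midQ s v z 0 0 1 0 0 -
      midQ s v z 0 0 0 1 0) = 2 * evalEntry midFormE10 s v z := by
  simp only [midQ, midHom, redHom, elimHom, jetM, jetC, vecM, vecC, jetOf_quad, quad,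
    Matrix.cons_val_zero, Matrix.cons_val_one, Fin.val_zero, Fin.val_one, Fin.val_two,
    show ((3 : Fin 5) : ℕ) = 3 from rfl, midDen, midK, evalEntry, midFormE10,
    midFormE10x0, midFormE10x1, midFormE10x2, midFormE10x3, midFormE10x4, midFormE10x5, midFormE10x6,
    List.map_cons, List.map_nil, hornerR, Matrix.cons_val]
  norm_num [hornerR]
  ring

set_option maxRecDepth 8000 in
/-- Entry 11 of the middle form. -/
lemma midEntry11 (s v z : ℝ) :
    -19660800000000 * (midQ s v z 0 0 1 0 1 - midQ s v z 0 0 1 0 0 -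
      midQ s v z 0 0 0 0 1) = 2 * evalEntry midFormE11 s v z := by
  simp only [midQ, midHom, redHom, elimHom, jetM, jetC, vecM, vecC, jetOf_quad, quad,
    Matrix.cons_val_zero, Matrix.cons_val_one, Fin.val_zero, Fin.val_one, Fin.val_two,
    show ((3 : Fin 5) : ℕ) = 3 from rfl, midDen, midK, evalEntry, midFormE11,
    midFormE11x0, midFormE11x1, midFormE11x2, midFormE11x3, midFormE11x4, midFormE11x5, midFormE11x6,
    List.map_cons, List.map_nil, hornerR, Matrix.cons_val]
  norm_num [hornerR]
  ring

set_option maxRecDepth 8000 in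
/-- Entry 12 of the middle form. -/
lemma midEntry12 (s v z : ℝ) :
    -19660800000000 * midQ s v z 0 0 0 1 0 = evalEntry midFormE12 s v z := by
  simp only [midQ, midHom, redHom, elimHom, jetM, jetC, vecM, vecC, jetOf_quad, quad,
    Matrix.cons_val_zero, Matrix.cons_val_one, Fin.val_zero, Fin.val_one, Fin.val_two,
    show ((3 : Fin 5) : ℕ) = 3 from rfl, midDen, midK, evalEntry, midFormE12,
    midFormE12x0, midFormE12x1, midFormE12x2, midFormE12x3, midFormE12x4, midFormE12x5, midFormE12x6,
    List.map_cons, List.map_nil, hornerR, Matrix.cons_val]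
  norm_num [hornerR]
  ring

set_option maxRecDepth 8000 in
/-- Entry 13 of the middle form. -/
lemma midEntry13 (s v z : ℝ) :
    -19660800000000 * (midQ s v z 0 0 0 1 1 - midQ s v z 0 0 0 1 0 -
      midQ s v z 0 0 0 0 1) = 2 * evalEntry midFormE13 s v z := by
  simp only [midQ, midHom, redHom, elimHom, jetM, jetC, vecM, vecC, jetOf_quad, quad,
    Matrix.cons_val_zero, Matrix.cons_val_one, Fin.val_zero, Fin.val_one, Fin.val_two,
    show ((3 : Fin 5) : ℕ) = 3 from rfl, midDen, midK, evalEntry, midFormE13,
    midFormE13x0, midFormE13x1, midFormE13x2, midFormE13x3, midFormE13x4, midFormE13x5, midFormE13x6,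
    List.map_cons, List.map_nil, hornerR, Matrix.cons_val]
  norm_num [hornerR]
  ring

set_option maxRecDepth 8000 in
/-- Entry 14 of the middle form. -/
lemma midEntry14 (s v z : ℝ) :
    -19660800000000 * midQ s v z 0 0 0 0 1 = evalEntry midFormE14 s v z := by
  simp only [midQ, midHom, redHom, elimHom, jetM, jetC, vecM, vecC, jetOf_quad, quad,
    Matrix.cons_val_zero, Matrix.cons_val_one, Fin.val_zero, Fin.val_one, Fin.val_two,
    show ((3 : Fin 5) : ℕ) = 3 from rfl, midDen, midK, evalEntry, midFormE14,
    midFormE14x0, midFormE14x1, midFormE14x2, midFormE14x3, midFormE14x4, midFormE14x5, midFormE14x6,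
    List.map_cons, List.map_nil, hornerR, Matrix.cons_val]
  norm_num [hornerR]
  ring

end

end Vale.Agent.P098.Cert
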