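import Vale.Agent.P098.Cert.Bridge.MidA
import Vale.Agent.P098.Cert.Bridge.MidB
import Vale.Agent.P098.Cert.Bridge.MidC
import Vale.Agent.P098.Cert.Data.MidNonneg

/-!
P098: the middle form is nonpositive on the cube, by the certificate.
-/

namespace Vale.Agent.P098.Cert

open Check Data

noncomputable section

/-- The hypothesis of `mid_vec` for the vector. -/
theorem midRed_vec_nonpos (s v τ : ℝ) (hs : s ∈ Set.Icc (0 : ℝ) 1) (hv : v ∈ Set.Icc (0 : ℝ) 1)
    (hτ : τ ∈ Set.Icc (0 : ℝ) 1) (w₀ w₁ w₂ o R : ℝ) (ho : 0 ≤ o) (hR : 0 ≤ R) :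
    midRed (1 / 4) (6252502 / 100000000) (1 / 10000) (jetM vecM (s, s ^ 2 + v * (1 - s ^ 2)))
      (jetC vecC (s, s ^ 2 + v * (1 - s ^ 2))) (midMu τ) (midR τ) s (v * (1 - s ^ 2))
      w₀ w₁ w₂ o R ≤ 0 := by
  have h := midForm_nonneg hs hv hτ w₀ w₁ w₂ o R ho hR
  simp only [midFormEntries, symMon, List.map_cons, List.map_nil, List.cons_append, List.nil_append,
    dotW] at h
  have hp := midHom_polar (1 / 4) (6252502 / 100000000) (1 / 10000)
    (jetM vecM (s, s ^ 2 + v * (1 - s ^ 2))) (jetC vecC (s, s ^ 2 + v * (1 - s ^ 2))) (midDen τ)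
    (6 * midK τ) (3 - 4 * midK τ ^ 2) s (v * (1 - s ^ 2)) w₀ w₁ w₂ o R
  have key : 0 ≤ -19660800000000 * midQ s v τ w₀ w₁ w₂ o R := by
    have e0 := congrArg (fun x => w₀ * w₀ * x) (midEntry0 s v τ)
    have e1 := congrArg (fun x => w₀ * w₁ * x) (midEntry1 s v τ)
    have e2 := congrArg (fun x => w₀ * w₂ * x) (midEntry2 s v τ)
    have e3 := congrArg (fun x => w₀ * o * x) (midEntry3 s v τ)
    have e4 := congrArg (fun x => w₀ * R * x) (midEntry4 s v τ)
    have e5 := congrArg (fun x => w₁ * w₁ * x) (midEntry5 s v τ)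
    have e6 := congrArg (fun x => w₁ * w₂ * x) (midEntry6 s v τ)
    have e7 := congrArg (fun x => w₁ * o * x) (midEntry7 s v τ)
    have e8 := congrArg (fun x => w₁ * R * x) (midEntry8 s v τ)
    have e9 := congrArg (fun x => w₂ * w₂ * x) (midEntry9 s v τ)
    have e10 := congrArg (fun x => w₂ * o * x) (midEntry10 s v τ)
    have e11 := congrArg (fun x => w₂ * R * x) (midEntry11 s v τ)
    have e12 := congrArg (fun x => o * o * x) (midEntry12 s v τ)
    have e13 := congrArg (fun x => o * R * x) (midEntry13 s v τ)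
    have e14 := congrArg (fun x => R * R * x) (midEntry14 s v τ)
    simp only [midQ] at *
    rw [hp]
    linarith
  obtain ⟨n1, n2⟩ := mid_num τ
  have hd := pow_pos (midDen_pos τ) 4
  rw [midQ, n1, n2, midHom_scale] at key
  by_contra hc
  rw [not_le] at hc
  linarith [mul_pos hd hc]

end

end Vale.Agent.P098.Cert
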