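import Vale.Agent.P098.Cert.Bridge.MidQ

/-!
P098: entries 0 to 4 of the tables of the middle form, as polynomial identities.
-/

namespace Vale.Agent.P098.Cert

open Check Data

noncomputable section

set_option maxRecDepth 8000 in
/-- Entry 0 of the middle form. -/
lemma midEntry0 (s v z : ℝ) :
    -19660800000000 * midQ s v z 1 0 0 0 0 = evalEntry midFormE0 s v z := by
  simp only [midQ, midHom, redHom, elimHom, jetM, jetC, vecM, vecC, jetOf_quad, quad,
    Matrix.cons_val_zero, Matrix.cons_val_one, Fin.val_zero, Fin.val_one, Fin.val_two,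
    show ((3 : Fin 5) : ℕ) = 3 from rfl, midDen, midK, evalEntry, midFormE0,
    midFormE0x0, midFormE0x1, midFormE0x2, midFormE0x3, midFormE0x4, midFormE0x5, midFormE0x6,
    List.map_cons, List.map_nil, hornerR, Matrix.cons_val]
  norm_num [hornerR]
  ring

set_option maxRecDepth 8000 in
/-- Entry 1 of the middle form. -/
lemma midEntry1 (s v z : ℝ) :
    -19660800000000 * (midQ s v z 1 1 0 0 0 - midQ s v z 1 0 0 0 0 -
      midQ s v z 0 1 0 0 0) = 2 * evalEntry midFormE1 s v z := by
  simp only [midQ, midHom, redHom, elimHom, jetM, jetC, vecM, vecC, jetOf_quad, quad,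
    Matrix.cons_val_zero, Matrix.cons_val_one, Fin.val_zero, Fin.val_one, Fin.val_two,
    show ((3 : Fin 5) : ℕ) = 3 from rfl, midDen, midK, evalEntry, midFormE1,
    midFormE1x0, midFormE1x1, midFormE1x2, midFormE1x3, midFormE1x4, midFormE1x5, midFormE1x6,
    List.map_cons, List.map_nil, hornerR, Matrix.cons_val]
  norm_num [hornerR]
  ring

set_option maxRecDepth 8000 in
/-- Entry 2 of the middle form. -/
lemma midEntry2 (s v z : ℝ) :
    -19660800000000 * (midQ s v z 1 0 1 0 0 - midQ s v z 1 0 0 0 0 -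
      midQ s v z 0 0 1 0 0) = 2 * evalEntry midFormE2 s v z := by
  simp only [midQ, midHom, redHom, elimHom, jetM, jetC, vecM, vecC, jetOf_quad, quad,
    Matrix.cons_val_zero, Matrix.cons_val_one, Fin.val_zero, Fin.val_one, Fin.val_two,
    show ((3 : Fin 5) : ℕ) = 3 from rfl, midDen, midK, evalEntry, midFormE2,
    midFormE2x0, midFormE2x1, midFormE2x2, midFormE2x3, midFormE2x4, midFormE2x5, midFormE2x6,
    List.map_cons, List.map_nil, hornerR, Matrix.cons_val]
  norm_num [hornerR]
  ring

set_option maxRecDepth 8000 in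
/-- Entry 3 of the middle form. -/
lemma midEntry3 (s v z : ℝ) :
    -19660800000000 * (midQ s v z 1 0 0 1 0 - midQ s v z 1 0 0 0 0 -
      midQ s v z 0 0 0 1 0) = 2 * evalEntry midFormE3 s v z := by
  simp only [midQ, midHom, redHom, elimHom, jetM, jetC, vecM, vecC, jetOf_quad, quad,
    Matrix.cons_val_zero, Matrix.cons_val_one, Fin.val_zero, Fin.val_one, Fin.val_two,
    show ((3 : Fin 5) : ℕ) = 3 from rfl, midDen, midK, evalEntry, midFormE3,
    midFormE3x0, midFormE3x1, midFormE3x2, midFormE3x3, midFormE3x4, midFormE3x5, midFormE3x6,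
    List.map_cons, List.map_nil, hornerR, Matrix.cons_val]
  norm_num [hornerR]
  ring

set_option maxRecDepth 8000 in
/-- Entry 4 of the middle form. -/
lemma midEntry4 (s v z : ℝ) :
    -19660800000000 * (midQ s v z 1 0 0 0 1 - midQ s v z 1 0 0 0 0 -
      midQ s v z 0 0 0 0 1) = 2 * evalEntry midFormE4 s v z := by
  simp only [midQ, midHom, redHom, elimHom, jetM, jetC, vecM, vecC, jetOf_quad, quad,
    Matrix.cons_val_zero, Matrix.cons_val_one, Fin.val_zero, Fin.val_one, Fin.val_two,
    show ((3 : Fin 5) : ℕ) = 3 from rfl, midDen, midK, evalEntry, midFormE4,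
    midFormE4x0, midFormE4x1, midFormE4x2, midFormE4x3, midFormE4x4, midFormE4x5, midFormE4x6,
    List.map_cons, List.map_nil, hornerR, Matrix.cons_val]
  norm_num [hornerR]
  ring

end

end Vale.Agent.P098.Cert
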