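import Vale.Agent.P098.Cert.Hom
import Vale.Agent.P098.Cert.Vector
import Vale.Agent.P098.Cert.Data.Mid

/-!
P098: the homogenised middle form of the certificate, for comparison with its tables.
-/

namespace Vale.Agent.P098.Cert

noncomputable section

/-- The homogenised middle form at a point of the cube. -/
def midQ (s v z : ℝ) : ℝ → ℝ → ℝ → ℝ → ℝ → ℝ :=
  midHom (1 / 4) (6252502 / 100000000) (1 / 10000) (jetM vecM (s, s ^ 2 + v * (1 - s ^ 2)))
    (jetC vecC (s, s ^ 2 + v * (1 - s ^ 2))) (midDen z) (6 * midK z) (3 - 4 * midK z ^ 2) s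
    (v * (1 - s ^ 2))

end

end Vale.Agent.P098.Cert
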