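import Vale.Agent.P098.Cert.Bridge.NodeQ
import Vale.Agent.P098.Cert.Data.NodeNeg

/-!
P098: entries 0 to 4 of the negative node tables, as polynomial identities.
-/

namespace Vale.Agent.P098.Cert

open Check Data

noncomputable section

set_option maxRecDepth 8000 in
/-- Entry 0 of the node form. -/
lemma nodeNegEntry0 (s v z : ℝ) :
    -42187500 * nodeQ s v z (-chartB z) 1 0 0 0 = evalEntry nodeNegE0 s v z := by
  simp only [nodeQ, nodeHom, redHom, elimHom, jetM, jetC, vecM, vecC, jetOf_quad, quad,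
    Matrix.cons_val_zero, Matrix.cons_val_one, Fin.val_zero, Fin.val_one, Fin.val_two,
    show ((3 : Fin 5) : ℕ) = 3 from rfl, chartN, chartB, chartDen, chartP, chartW, evalEntry,
    nodeNegE0, nodeNegE0x0, nodeNegE0x1, nodeNegE0x2, nodeNegE0x3, nodeNegE0x4, nodeNegE0x5, nodeNegE0x6,
    List.map_cons, List.map_nil, hornerR, Matrix.cons_val]
  norm_num [hornerR]
  ring

set_option maxRecDepth 8000 in
/-- Entry 1 of the node form. -/
lemma nodeNegEntry1 (s v z : ℝ) :
    -42187500 * (nodeQ s v z (-chartB z) 1 1 0 0 - nodeQ s v z (-chartB z) 1 0 0 0 -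
      nodeQ s v z (-chartB z) 0 1 0 0) = 2 * evalEntry nodeNegE1 s v z := by
  simp only [nodeQ, nodeHom, redHom, elimHom, jetM, jetC, vecM, vecC, jetOf_quad, quad,
    Matrix.cons_val_zero, Matrix.cons_val_one, Fin.val_zero, Fin.val_one, Fin.val_two,
    show ((3 : Fin 5) : ℕ) = 3 from rfl, chartN, chartB, chartDen, chartP, chartW, evalEntry,
    nodeNegE1, nodeNegE1x0, nodeNegE1x1, nodeNegE1x2, nodeNegE1x3, nodeNegE1x4, nodeNegE1x5, nodeNegE1x6,
    List.map_cons, List.map_nil, hornerR, Matrix.cons_val]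
  norm_num [hornerR]
  ring

set_option maxRecDepth 8000 in
/-- Entry 2 of the node form. -/
lemma nodeNegEntry2 (s v z : ℝ) :
    -42187500 * (nodeQ s v z (-chartB z) 1 0 1 0 - nodeQ s v z (-chartB z) 1 0 0 0 -
      nodeQ s v z (-chartB z) 0 0 1 0) = 2 * evalEntry nodeNegE2 s v z := by
  simp only [nodeQ, nodeHom, redHom, elimHom, jetM, jetC, vecM, vecC, jetOf_quad, quad,
    Matrix.cons_val_zero, Matrix.cons_val_one, Fin.val_zero, Fin.val_one, Fin.val_two,
    show ((3 : Fin 5) : ℕ) = 3 from rfl, chartN, chartB, chartDen, chartP, chartW, evalEntry,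
    nodeNegE2, nodeNegE2x0, nodeNegE2x1, nodeNegE2x2, nodeNegE2x3, nodeNegE2x4, nodeNegE2x5, nodeNegE2x6,
    List.map_cons, List.map_nil, hornerR, Matrix.cons_val]
  norm_num [hornerR]
  ring

set_option maxRecDepth 8000 in
/-- Entry 3 of the node form. -/
lemma nodeNegEntry3 (s v z : ℝ) :
    -42187500 * (nodeQ s v z (-chartB z) 1 0 0 1 - nodeQ s v z (-chartB z) 1 0 0 0 -
      nodeQ s v z (-chartB z) 0 0 0 1) = 2 * evalEntry nodeNegE3 s v z := by
  simp only [nodeQ, nodeHom, redHom, elimHom, jetM, jetC, vecM, vecC, jetOf_quad, quad,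
    Matrix.cons_val_zero, Matrix.cons_val_one, Fin.val_zero, Fin.val_one, Fin.val_two,
    show ((3 : Fin 5) : ℕ) = 3 from rfl, chartN, chartB, chartDen, chartP, chartW, evalEntry,
    nodeNegE3, nodeNegE3x0, nodeNegE3x1, nodeNegE3x2, nodeNegE3x3, nodeNegE3x4, nodeNegE3x5, nodeNegE3x6,
    List.map_cons, List.map_nil, hornerR, Matrix.cons_val]
  norm_num [hornerR]
  ring

set_option maxRecDepth 8000 in
/-- Entry 4 of the node form. -/
lemma nodeNegEntry4 (s v z : ℝ) :
    -42187500 * nodeQ s v z (-chartB z) 0 1 0 0 = evalEntry nodeNegE4 s v z := by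
  simp only [nodeQ, nodeHom, redHom, elimHom, jetM, jetC, vecM, vecC, jetOf_quad, quad,
    Matrix.cons_val_zero, Matrix.cons_val_one, Fin.val_zero, Fin.val_one, Fin.val_two,
    show ((3 : Fin 5) : ℕ) = 3 from rfl, chartN, chartB, chartDen, chartP, chartW, evalEntry,
    nodeNegE4, nodeNegE4x0, nodeNegE4x1, nodeNegE4x2, nodeNegE4x3, nodeNegE4x4, nodeNegE4x5, nodeNegE4x6,
    List.map_cons, List.map_nil, hornerR, Matrix.cons_val]
  norm_num [hornerR]
  ring

end

end Vale.Agent.P098.Cert
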