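import Vale.Agent.P098.Cert.Bridge.NodeQ
import Vale.Agent.P098.Cert.Data.NodeNeg

/-!
P098: entries 5 to 9 of the negative node tables, as polynomial identities.
-/

namespace Vale.Agent.P098.Cert

open Check Data

noncomputable section

set_option maxRecDepth 8000 in
/-- Entry 5 of the node form. -/
lemma nodeNegEntry5 (s v z : ℝ) :
    -42187500 * (nodeQ s v z (-chartB z) 0 1 1 0 - nodeQ s v z (-chartB z) 0 1 0 0 -
      nodeQ s v z (-chartB z) 0 0 1 0) = 2 * evalEntry nodeNegE5 s v z := by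
  simp only [nodeQ, nodeHom, redHom, elimHom, jetM, jetC, vecM, vecC, jetOf_quad, quad,
    Matrix.cons_val_zero, Matrix.cons_val_one, Fin.val_zero, Fin.val_one, Fin.val_two,
    show ((3 : Fin 5) : ℕ) = 3 from rfl, chartN, chartB, chartDen, chartP, chartW, evalEntry,
    nodeNegE5, nodeNegE5x0, nodeNegE5x1, nodeNegE5x2, nodeNegE5x3, nodeNegE5x4, nodeNegE5x5, nodeNegE5x6,
    List.map_cons, List.map_nil, hornerR, Matrix.cons_val]
  norm_num [hornerR]
  ring

set_option maxRecDepth 8000 in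
/-- Entry 6 of the node form. -/
lemma nodeNegEntry6 (s v z : ℝ) :
    -42187500 * (nodeQ s v z (-chartB z) 0 1 0 1 - nodeQ s v z (-chartB z) 0 1 0 0 -
      nodeQ s v z (-chartB z) 0 0 0 1) = 2 * evalEntry nodeNegE6 s v z := by
  simp only [nodeQ, nodeHom, redHom, elimHom, jetM, jetC, vecM, vecC, jetOf_quad, quad,
    Matrix.cons_val_zero, Matrix.cons_val_one, Fin.val_zero, Fin.val_one, Fin.val_two,
    show ((3 : Fin 5) : ℕ) = 3 from rfl, chartN, chartB, chartDen, chartP, chartW, evalEntry,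
    nodeNegE6, nodeNegE6x0, nodeNegE6x1, nodeNegE6x2, nodeNegE6x3, nodeNegE6x4, nodeNegE6x5, nodeNegE6x6,
    List.map_cons, List.map_nil, hornerR, Matrix.cons_val]
  norm_num [hornerR]
  ring

set_option maxRecDepth 8000 in
/-- Entry 7 of the node form. -/
lemma nodeNegEntry7 (s v z : ℝ) :
    -42187500 * nodeQ s v z (-chartB z) 0 0 1 0 = evalEntry nodeNegE7 s v z := by
  simp only [nodeQ, nodeHom, redHom, elimHom, jetM, jetC, vecM, vecC, jetOf_quad, quad,
    Matrix.cons_val_zero, Matrix.cons_val_one, Fin.val_zero, Fin.val_one, Fin.val_two,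
    show ((3 : Fin 5) : ℕ) = 3 from rfl, chartN, chartB, chartDen, chartP, chartW, evalEntry,
    nodeNegE7, nodeNegE7x0, nodeNegE7x1, nodeNegE7x2, nodeNegE7x3, nodeNegE7x4, nodeNegE7x5, nodeNegE7x6,
    List.map_cons, List.map_nil, hornerR, Matrix.cons_val]
  norm_num [hornerR]
  ring

set_option maxRecDepth 8000 in
/-- Entry 8 of the node form. -/
lemma nodeNegEntry8 (s v z : ℝ) :
    -42187500 * (nodeQ s v z (-chartB z) 0 0 1 1 - nodeQ s v z (-chartB z) 0 0 1 0 -
      nodeQ s v z (-chartB z) 0 0 0 1) = 2 * evalEntry nodeNegE8 s v z := by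
  simp only [nodeQ, nodeHom, redHom, elimHom, jetM, jetC, vecM, vecC, jetOf_quad, quad,
    Matrix.cons_val_zero, Matrix.cons_val_one, Fin.val_zero, Fin.val_one, Fin.val_two,
    show ((3 : Fin 5) : ℕ) = 3 from rfl, chartN, chartB, chartDen, chartP, chartW, evalEntry,
    nodeNegE8, nodeNegE8x0, nodeNegE8x1, nodeNegE8x2, nodeNegE8x3, nodeNegE8x4, nodeNegE8x5, nodeNegE8x6,
    List.map_cons, List.map_nil, hornerR, Matrix.cons_val]
  norm_num [hornerR]
  ring

set_option maxRecDepth 8000 in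
/-- Entry 9 of the node form. -/
lemma nodeNegEntry9 (s v z : ℝ) :
    -42187500 * nodeQ s v z (-chartB z) 0 0 0 1 = evalEntry nodeNegE9 s v z := by
  simp only [nodeQ, nodeHom, redHom, elimHom, jetM, jetC, vecM, vecC, jetOf_quad, quad,
    Matrix.cons_val_zero, Matrix.cons_val_one, Fin.val_zero, Fin.val_one, Fin.val_two,
    show ((3 : Fin 5) : ℕ) = 3 from rfl, chartN, chartB, chartDen, chartP, chartW, evalEntry,
    nodeNegE9, nodeNegE9x0, nodeNegE9x1, nodeNegE9x2, nodeNegE9x3, nodeNegE9x4, nodeNegE9x5, nodeNegE9x6,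
    List.map_cons, List.map_nil, hornerR, Matrix.cons_val]
  norm_num [hornerR]
  ring

end

end Vale.Agent.P098.Cert
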