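import Vale.Agent.P098.Cert.Bridge.NodeQ
import Vale.Agent.P098.Cert.Data.NodePos

/-!
P098: entries 5 to 9 of the positive node tables, as polynomial identities.
-/

namespace Vale.Agent.P098.Cert

open Check Data

noncomputable section

set_option maxRecDepth 8000 in
/-- Entry 5 of the node form. -/
lemma nodePosEntry5 (s v z : ℝ) :
    -1562500 * (nodeQ s v z (chartB z) 0 1 1 0 - nodeQ s v z (chartB z) 0 1 0 0 -
      nodeQ s v z (chartB z) 0 0 1 0) = 2 * evalEntry nodePosE5 s v z := by
  simp only [nodeQ, nodeHom, redHom, elimHom, jetM, jetC, vecM, vecC, jetOf_quad, quad,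
    Matrix.cons_val_zero, Matrix.cons_val_one, Fin.val_zero, Fin.val_one, Fin.val_two,
    show ((3 : Fin 5) : ℕ) = 3 from rfl, chartN, chartB, chartDen, chartP, chartW, evalEntry,
    nodePosE5, nodePosE5x0, nodePosE5x1, nodePosE5x2, nodePosE5x3, nodePosE5x4, nodePosE5x5, nodePosE5x6,
    List.map_cons, List.map_nil, hornerR, Matrix.cons_val]
  norm_num [hornerR]
  ring

set_option maxRecDepth 8000 in
/-- Entry 6 of the node form. -/
lemma nodePosEntry6 (s v z : ℝ) :
    -1562500 * (nodeQ s v z (chartB z) 0 1 0 1 - nodeQ s v z (chartB z) 0 1 0 0 -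
      nodeQ s v z (chartB z) 0 0 0 1) = 2 * evalEntry nodePosE6 s v z := by
  simp only [nodeQ, nodeHom, redHom, elimHom, jetM, jetC, vecM, vecC, jetOf_quad, quad,
    Matrix.cons_val_zero, Matrix.cons_val_one, Fin.val_zero, Fin.val_one, Fin.val_two,
    show ((3 : Fin 5) : ℕ) = 3 from rfl, chartN, chartB, chartDen, chartP, chartW, evalEntry,
    nodePosE6, nodePosE6x0, nodePosE6x1, nodePosE6x2, nodePosE6x3, nodePosE6x4, nodePosE6x5, nodePosE6x6,
    List.map_cons, List.map_nil, hornerR, Matrix.cons_val]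
  norm_num [hornerR]
  ring

set_option maxRecDepth 8000 in
/-- Entry 7 of the node form. -/
lemma nodePosEntry7 (s v z : ℝ) :
    -1562500 * nodeQ s v z (chartB z) 0 0 1 0 = evalEntry nodePosE7 s v z := by
  simp only [nodeQ, nodeHom, redHom, elimHom, jetM, jetC, vecM, vecC, jetOf_quad, quad,
    Matrix.cons_val_zero, Matrix.cons_val_one, Fin.val_zero, Fin.val_one, Fin.val_two,
    show ((3 : Fin 5) : ℕ) = 3 from rfl, chartN, chartB, chartDen, chartP, chartW, evalEntry,
    nodePosE7, nodePosE7x0, nodePosE7x1, nodePosE7x2, nodePosE7x3, nodePosE7x4, nodePosE7x5, nodePosE7x6,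
    List.map_cons, List.map_nil, hornerR, Matrix.cons_val]
  norm_num [hornerR]
  ring

set_option maxRecDepth 8000 in
/-- Entry 8 of the node form. -/
lemma nodePosEntry8 (s v z : ℝ) :
    -1562500 * (nodeQ s v z (chartB z) 0 0 1 1 - nodeQ s v z (chartB z) 0 0 1 0 -
      nodeQ s v z (chartB z) 0 0 0 1) = 2 * evalEntry nodePosE8 s v z := by
  simp only [nodeQ, nodeHom, redHom, elimHom, jetM, jetC, vecM, vecC, jetOf_quad, quad,
    Matrix.cons_val_zero, Matrix.cons_val_one, Fin.val_zero, Fin.val_one, Fin.val_two,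
    show ((3 : Fin 5) : ℕ) = 3 from rfl, chartN, chartB, chartDen, chartP, chartW, evalEntry,
    nodePosE8, nodePosE8x0, nodePosE8x1, nodePosE8x2, nodePosE8x3, nodePosE8x4, nodePosE8x5, nodePosE8x6,
    List.map_cons, List.map_nil, hornerR, Matrix.cons_val]
  norm_num [hornerR]
  ring

set_option maxRecDepth 8000 in
/-- Entry 9 of the node form. -/
lemma nodePosEntry9 (s v z : ℝ) :
    -1562500 * nodeQ s v z (chartB z) 0 0 0 1 = evalEntry nodePosE9 s v z := by
  simp only [nodeQ, nodeHom, redHom, elimHom, jetM, jetC, vecM, vecC, jetOf_quad, quad,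
    Matrix.cons_val_zero, Matrix.cons_val_one, Fin.val_zero, Fin.val_one, Fin.val_two,
    show ((3 : Fin 5) : ℕ) = 3 from rfl, chartN, chartB, chartDen, chartP, chartW, evalEntry,
    nodePosE9, nodePosE9x0, nodePosE9x1, nodePosE9x2, nodePosE9x3, nodePosE9x4, nodePosE9x5, nodePosE9x6,
    List.map_cons, List.map_nil, hornerR, Matrix.cons_val]
  norm_num [hornerR]
  ring

end

end Vale.Agent.P098.Cert
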