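import Vale.Agent.P098.Cert.Bridge.NodePosA
import Vale.Agent.P098.Cert.Bridge.NodePosB
import Vale.Agent.P098.Cert.Bridge.NodeNegA
import Vale.Agent.P098.Cert.Bridge.NodeNegB
import Vale.Agent.P098.Cert.Data.NodePosNonneg
import Vale.Agent.P098.Cert.Data.NodeNegNonneg

/-!
P098: both node forms are nonpositive on the cube, by the certificate.
-/

namespace Vale.Agent.P098.Cert

open Check Data

noncomputable section

/-- One half of the hypothesis of `node_vec` for the vector. -/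
theorem nodeRed_pos_nonpos (s v τ : ℝ) (hs : s ∈ Set.Icc (0 : ℝ) 1) (hv : v ∈ Set.Icc (0 : ℝ) 1)
    (hτ : τ ∈ Set.Icc (0 : ℝ) 1) (w₀ w₁ o R : ℝ) (ho : 0 ≤ o) (hR : 0 ≤ R) :
    nodeRed (1 / 4) (6252502 / 100000000) (1 / 10000) (jetM vecM (s, s ^ 2 + v * (1 - s ^ 2)))
      (jetC vecC (s, s ^ 2 + v * (1 - s ^ 2))) (chartMu τ) (chartA τ) s (v * (1 - s ^ 2))
      w₀ w₁ o R ≤ 0 := by
  have h := nodePos_nonneg hs hv hτ w₀ w₁ o R ho hR
  simp only [nodePosEntries, symMon, List.map_cons, List.map_nil, List.cons_append, List.nil_append,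
    dotW] at h
  have hp := nodeHom_polar (1 / 4) (6252502 / 100000000) (1 / 10000)
    (jetM vecM (s, s ^ 2 + v * (1 - s ^ 2))) (jetC vecC (s, s ^ 2 + v * (1 - s ^ 2))) (chartDen τ)
    (chartN τ) (chartB τ) s (v * (1 - s ^ 2)) w₀ w₁ o R
  have key : 0 ≤ -1562500 * nodeQ s v τ (chartB τ) w₀ w₁ o R := by
    have e0 := congrArg (fun x => w₀ * w₀ * x) (nodePosEntry0 s v τ)
    have e1 := congrArg (fun x => w₀ * w₁ * x) (nodePosEntry1 s v τ)
    have e2 := congrArg (fun x => w₀ * o * x) (nodePosEntry2 s v τ)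
    have e3 := congrArg (fun x => w₀ * R * x) (nodePosEntry3 s v τ)
    have e4 := congrArg (fun x => w₁ * w₁ * x) (nodePosEntry4 s v τ)
    have e5 := congrArg (fun x => w₁ * o * x) (nodePosEntry5 s v τ)
    have e6 := congrArg (fun x => w₁ * R * x) (nodePosEntry6 s v τ)
    have e7 := congrArg (fun x => o * o * x) (nodePosEntry7 s v τ)
    have e8 := congrArg (fun x => o * R * x) (nodePosEntry8 s v τ)
    have e9 := congrArg (fun x => R * R * x) (nodePosEntry9 s v τ)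
    simp only [nodeQ] at *
    rw [hp]
    linarith
  obtain ⟨n1, n2⟩ := chart_num τ
  have hd := pow_pos (chartDen_pos τ) 4
  rw [nodeQ, n1, n2, nodeHom_scale] at key
  by_contra hc
  rw [not_le] at hc
  linarith [mul_pos hd hc]

/-- One half of the hypothesis of `node_vec` for the vector. -/
theorem nodeRed_neg_nonpos (s v τ : ℝ) (hs : s ∈ Set.Icc (0 : ℝ) 1) (hv : v ∈ Set.Icc (0 : ℝ) 1)
    (hτ : τ ∈ Set.Icc (0 : ℝ) 1) (w₀ w₁ o R : ℝ) (ho : 0 ≤ o) (hR : 0 ≤ R) :
    nodeRed (1 / 4) (6252502 / 100000000) (1 / 10000) (jetM vecM (s, s ^ 2 + v * (1 - s ^ 2)))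
      (jetC vecC (s, s ^ 2 + v * (1 - s ^ 2))) (chartMu τ) (-chartA τ) s (v * (1 - s ^ 2))
      w₀ w₁ o R ≤ 0 := by
  have h := nodeNeg_nonneg hs hv hτ w₀ w₁ o R ho hR
  simp only [nodeNegEntries, symMon, List.map_cons, List.map_nil, List.cons_append, List.nil_append,
    dotW] at h
  have hp := nodeHom_polar (1 / 4) (6252502 / 100000000) (1 / 10000)
    (jetM vecM (s, s ^ 2 + v * (1 - s ^ 2))) (jetC vecC (s, s ^ 2 + v * (1 - s ^ 2))) (chartDen τ)
    (chartN τ) (-chartB τ) s (v * (1 - s ^ 2)) w₀ w₁ o R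
  have key : 0 ≤ -42187500 * nodeQ s v τ (-chartB τ) w₀ w₁ o R := by
    have e0 := congrArg (fun x => w₀ * w₀ * x) (nodeNegEntry0 s v τ)
    have e1 := congrArg (fun x => w₀ * w₁ * x) (nodeNegEntry1 s v τ)
    have e2 := congrArg (fun x => w₀ * o * x) (nodeNegEntry2 s v τ)
    have e3 := congrArg (fun x => w₀ * R * x) (nodeNegEntry3 s v τ)
    have e4 := congrArg (fun x => w₁ * w₁ * x) (nodeNegEntry4 s v τ)
    have e5 := congrArg (fun x => w₁ * o * x) (nodeNegEntry5 s v τ)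
    have e6 := congrArg (fun x => w₁ * R * x) (nodeNegEntry6 s v τ)
    have e7 := congrArg (fun x => o * o * x) (nodeNegEntry7 s v τ)
    have e8 := congrArg (fun x => o * R * x) (nodeNegEntry8 s v τ)
    have e9 := congrArg (fun x => R * R * x) (nodeNegEntry9 s v τ)
    simp only [nodeQ] at *
    rw [hp]
    linarith
  obtain ⟨n1, n2⟩ := chart_num τ
  have hd := pow_pos (chartDen_pos τ) 4
  rw [nodeQ, n1, n2, ← mul_neg, nodeHom_scale] at key
  by_contra hc
  rw [not_le] at hc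
  linarith [mul_pos hd hc]

end

end Vale.Agent.P098.Cert
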