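import Vale.Agent.P098.Cert.Bridge.NodeQ
import Vale.Agent.P098.Cert.Data.NodePos

/-!
P098: entries 0 to 4 of the positive node tables, as polynomial identities.
-/

namespace Vale.Agent.P098.Cert

open Check Data

noncomputable section

set_option maxRecDepth 8000 in
/-- Entry 0 of the node form. -/
lemma nodePosEntry0 (s v z : ℝ) :
    -1562500 * nodeQ s v z (chartB z) 1 0 0 0 = evalEntry nodePosE0 s v z := by
  simp only [nodeQ, nodeHom, redHom, elimHom, jetM, jetC, vecM, vecC, jetOf_quad, quad,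
    Matrix.cons_val_zero, Matrix.cons_val_one, Fin.val_zero, Fin.val_one, Fin.val_two,
    show ((3 : Fin 5) : ℕ) = 3 from rfl, chartN, chartB, chartDen, chartP, chartW, evalEntry,
    nodePosE0, nodePosE0x0, nodePosE0x1, nodePosE0x2, nodePosE0x3, nodePosE0x4, nodePosE0x5, nodePosE0x6,
    List.map_cons, List.map_nil, hornerR, Matrix.cons_val]
  norm_num [hornerR]
  ring

set_option maxRecDepth 8000 in
/-- Entry 1 of the node form. -/
lemma nodePosEntry1 (s v z : ℝ) :
    -1562500 * (nodeQ s v z (chartB z) 1 1 0 0 - nodeQ s v z (chartB z) 1 0 0 0 -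
      nodeQ s v z (chartB z) 0 1 0 0) = 2 * evalEntry nodePosE1 s v z := by
  simp only [nodeQ, nodeHom, redHom, elimHom, jetM, jetC, vecM, vecC, jetOf_quad, quad,
    Matrix.cons_val_zero, Matrix.cons_val_one, Fin.val_zero, Fin.val_one, Fin.val_two,
    show ((3 : Fin 5) : ℕ) = 3 from rfl, chartN, chartB, chartDen, chartP, chartW, evalEntry,
    nodePosE1, nodePosE1x0, nodePosE1x1, nodePosE1x2, nodePosE1x3, nodePosE1x4, nodePosE1x5, nodePosE1x6,
    List.map_cons, List.map_nil, hornerR, Matrix.cons_val]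
  norm_num [hornerR]
  ring

set_option maxRecDepth 8000 in
/-- Entry 2 of the node form. -/
lemma nodePosEntry2 (s v z : ℝ) :
    -1562500 * (nodeQ s v z (chartB z) 1 0 1 0 - nodeQ s v z (chartB z) 1 0 0 0 -
      nodeQ s v z (chartB z) 0 0 1 0) = 2 * evalEntry nodePosE2 s v z := by
  simp only [nodeQ, nodeHom, redHom, elimHom, jetM, jetC, vecM, vecC, jetOf_quad, quad,
    Matrix.cons_val_zero, Matrix.cons_val_one, Fin.val_zero, Fin.val_one, Fin.val_two,
    show ((3 : Fin 5) : ℕ) = 3 from rfl, chartN, chartB, chartDen, chartP, chartW, evalEntry,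
    nodePosE2, nodePosE2x0, nodePosE2x1, nodePosE2x2, nodePosE2x3, nodePosE2x4, nodePosE2x5, nodePosE2x6,
    List.map_cons, List.map_nil, hornerR, Matrix.cons_val]
  norm_num [hornerR]
  ring

set_option maxRecDepth 8000 in
/-- Entry 3 of the node form. -/
lemma nodePosEntry3 (s v z : ℝ) :
    -1562500 * (nodeQ s v z (chartB z) 1 0 0 1 - nodeQ s v z (chartB z) 1 0 0 0 -
      nodeQ s v z (chartB z) 0 0 0 1) = 2 * evalEntry nodePosE3 s v z := by
  simp only [nodeQ, nodeHom, redHom, elimHom, jetM, jetC, vecM, vecC, jetOf_quad, quad,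
    Matrix.cons_val_zero, Matrix.cons_val_one, Fin.val_zero, Fin.val_one, Fin.val_two,
    show ((3 : Fin 5) : ℕ) = 3 from rfl, chartN, chartB, chartDen, chartP, chartW, evalEntry,
    nodePosE3, nodePosE3x0, nodePosE3x1, nodePosE3x2, nodePosE3x3, nodePosE3x4, nodePosE3x5, nodePosE3x6,
    List.map_cons, List.map_nil, hornerR, Matrix.cons_val]
  norm_num [hornerR]
  ring

set_option maxRecDepth 8000 in
/-- Entry 4 of the node form. -/
lemma nodePosEntry4 (s v z : ℝ) :
    -1562500 * nodeQ s v z (chartB z) 0 1 0 0 = evalEntry nodePosE4 s v z := by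
  simp only [nodeQ, nodeHom, redHom, elimHom, jetM, jetC, vecM, vecC, jetOf_quad, quad,
    Matrix.cons_val_zero, Matrix.cons_val_one, Fin.val_zero, Fin.val_one, Fin.val_two,
    show ((3 : Fin 5) : ℕ) = 3 from rfl, chartN, chartB, chartDen, chartP, chartW, evalEntry,
    nodePosE4, nodePosE4x0, nodePosE4x1, nodePosE4x2, nodePosE4x3, nodePosE4x4, nodePosE4x5, nodePosE4x6,
    List.map_cons, List.map_nil, hornerR, Matrix.cons_val]
  norm_num [hornerR]
  ring

end

end Vale.Agent.P098.Cert
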