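import Vale.Agent.P098.Cert.Hom
import Vale.Agent.P098.Cert.Vector

/-!
P098: the homogenised node forms of the certificate, for comparison with the tables.
-/

namespace Vale.Agent.P098.Cert

noncomputable section

/-- The homogenised node form at a point of the cube, with the spread numerator `a`. -/
def nodeQ (s v z a : ℝ) : ℝ → ℝ → ℝ → ℝ → ℝ :=
  nodeHom (1 / 4) (6252502 / 100000000) (1 / 10000) (jetM vecM (s, s ^ 2 + v * (1 - s ^ 2)))
    (jetC vecC (s, s ^ 2 + v * (1 - s ^ 2))) (chartDen z) (chartN z) a s (v * (1 - s ^ 2))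

end

end Vale.Agent.P098.Cert
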